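import Vale.Agent.Lib.P154_q4.Inv

/-!
The average over the relabellings of the majorant of the square functional: explicit form.
-/

noncomputable section

namespace Vale.Agent.Lib.P154_q4

open Vale.Agent.Lib.Common.Kron Vale.Agent.Lib.Common.Kron.PE

/-- The majorant, with denominators cleared, in terms of the four entries. -/
def W (l0 l1 l2 l3 : ℝ) : ℝ :=
  (4 * (l0 ^ 2 + l1 ^ 2 + l2 ^ 2 + l3 ^ 2) - (l0 + l1 + l2 + l3) ^ 2)
      * (16384 - 4096 * (l0 + l1 + l2 + l3 - 4) + 1024 * (l0 + l1 + l2 + l3 - 4) ^ 2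
        - 256 * (l0 + l1 + l2 + l3 - 4) ^ 3 + 28 * (l0 + l1 + l2 + l3 - 4) ^ 4
        - (l0 + l1 + l2 + l3 - 4) ^ 5)
    + 3 * ((4 + (l0 + l1 + l2 + l3 - 4)) * ((l0 + l1 + l2 + l3 - 4) ^ 4
      * (12 - (l0 + l1 + l2 + l3 - 4)) ^ 2))

namespace EA

/-- Expression of `W`. -/
def eW (l0 l1 l2 l3 : PE) : PE :=
  let Sm := add (add (add l0 l1) l2) l3
  let T := add Sm (neg (c 4))
  add (mul (add (mul (c 4) (add (add (add (pow l0 2) (pow l1 2)) (pow l2 2)) (pow l3 2))) (neg (pow Sm 2)))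
      (add (add (add (add (add (c 16384) (neg (mul (c 4096) T))) (mul (c 1024) (pow T 2)))
        (neg (mul (c 256) (pow T 3)))) (mul (c 28) (pow T 4))) (neg (pow T 5))))
    (mul (c 3) (mul (add (c 4) T) (mul (pow T 4) (pow (add (c 12) (neg T)) 2))))

/-- Entries of a vector in Fourier coordinates given by the variables `i, i+1, i+2`. -/
def ent (i : ℕ) : Fin 4 → PE
  | 0 => add (add (add (c 1) (v i)) (v (i + 1))) (v (i + 2))
  | 1 => add (add (add (c 1) (v i)) (neg (v (i + 1)))) (neg (v (i + 2)))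
  | 2 => add (add (add (c 1) (neg (v i))) (v (i + 1))) (neg (v (i + 2)))
  | 3 => add (add (add (c 1) (neg (v i))) (neg (v (i + 1)))) (v (i + 2))

/-- The sum over a list of relabellings. -/
def eSum : List (Equiv.Perm (Fin 4)) → PE
  | [] => c 0
  | σ :: L => add (eW (mul (ent 0 0) (ent 3 (σ 0))) (mul (ent 0 1) (ent 3 (σ 1)))
      (mul (ent 0 2) (ent 3 (σ 2))) (mul (ent 0 3) (ent 3 (σ 3)))) (eSum L)

def eS (i : ℕ) : PE := add (add (pow (v i) 2) (pow (v (i + 1)) 2)) (pow (v (i + 2)) 2)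
def eY (i : ℕ) : PE := mul (c 6) (mul (mul (v i) (v (i + 1))) (v (i + 2)))
def eT (i : ℕ) : PE :=
  mul (c 4) (add (add (mul (pow (v i) 2) (pow (v (i + 1)) 2)) (mul (pow (v i) 2) (pow (v (i + 2)) 2)))
    (mul (pow (v (i + 1)) 2) (pow (v (i + 2)) 2)))

/-- Expression of a table in the Fourier coordinates. -/
def eTab : List Ent → PE
  | [] => c 0
  | F :: L => add (mul (mul (if F.sg then c F.c else neg (c F.c))
      (mul (mul (pow (eS 0) F.i1) (pow (eY 0) F.i2)) (pow (eT 0) F.i3)))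
      (mul (mul (pow (eS 3) F.j1) (pow (eY 3) F.j2)) (pow (eT 3) F.j3))) (eTab L)

end EA

/-- All permutations of four letters. -/
def permL : List (Equiv.Perm (Fin 4)) := [
  ⟨![0, 1, 2, 3], ![0, 1, 2, 3], by decide, by decide⟩,
  ⟨![0, 1, 3, 2], ![0, 1, 3, 2], by decide, by decide⟩,
  ⟨![0, 2, 1, 3], ![0, 2, 1, 3], by decide, by decide⟩,
  ⟨![0, 2, 3, 1], ![0, 3, 1, 2], by decide, by decide⟩,
  ⟨![0, 3, 1, 2], ![0, 2, 3, 1], by decide, by decide⟩,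
  ⟨![0, 3, 2, 1], ![0, 3, 2, 1], by decide, by decide⟩,
  ⟨![1, 0, 2, 3], ![1, 0, 2, 3], by decide, by decide⟩,
  ⟨![1, 0, 3, 2], ![1, 0, 3, 2], by decide, by decide⟩,
  ⟨![1, 2, 0, 3], ![2, 0, 1, 3], by decide, by decide⟩,
  ⟨![1, 2, 3, 0], ![3, 0, 1, 2], by decide, by decide⟩,
  ⟨![1, 3, 0, 2], ![2, 0, 3, 1], by decide, by decide⟩,
  ⟨![1, 3, 2, 0], ![3, 0, 2, 1], by decide, by decide⟩,
  ⟨![2, 0, 1, 3], ![1, 2, 0, 3], by decide, by decide⟩,
  ⟨![2, 0, 3, 1], ![1, 3, 0, 2], by decide, by decide⟩,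
  ⟨![2, 1, 0, 3], ![2, 1, 0, 3], by decide, by decide⟩,
  ⟨![2, 1, 3, 0], ![3, 1, 0, 2], by decide, by decide⟩,
  ⟨![2, 3, 0, 1], ![2, 3, 0, 1], by decide, by decide⟩,
  ⟨![2, 3, 1, 0], ![3, 2, 0, 1], by decide, by decide⟩,
  ⟨![3, 0, 1, 2], ![1, 2, 3, 0], by decide, by decide⟩,
  ⟨![3, 0, 2, 1], ![1, 3, 2, 0], by decide, by decide⟩,
  ⟨![3, 1, 0, 2], ![2, 1, 3, 0], by decide, by decide⟩,
  ⟨![3, 1, 2, 0], ![3, 1, 2, 0], by decide, by decide⟩,
  ⟨![3, 2, 0, 1], ![2, 3, 1, 0], by decide, by decide⟩,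
  ⟨![3, 2, 1, 0], ![3, 2, 1, 0], by decide, by decide⟩]

/-- The expression of the identity. -/
def eId : PE :=
  add (mul (c 9) (EA.eSum permL)) (neg (mul (c 16384) (EA.eTab tabAv)))

def radA : List ℕ := [8, 8, 8, 8, 8, 8]

end Vale.Agent.Lib.P154_q4
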