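import Vale.Agent.Lib.Common.Kron

/-!
The coefficient tables of the bi-invariant polynomial inequality for the four-state recursion.
-/

noncomputable section

namespace Vale.Agent.Lib.P154_q4

open Vale.Agent.Lib.Common.Kron

/-- One monomial in the invariants `s, y, t` and `s', y', t'` of two vectors. -/
structure Ent where
  sg : Bool
  c : ℕ
  i1 : ℕ
  i2 : ℕ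
  i3 : ℕ
  j1 : ℕ
  j2 : ℕ
  j3 : ℕ

/-- Value of a monomial. -/
def Ent.val (E : Ent) (s y t s' y' t' : ℝ) : ℝ :=
  (if E.sg then (E.c : ℝ) else -(E.c : ℝ)) * (s ^ E.i1 * y ^ E.i2 * t ^ E.i3)
    * (s' ^ E.j1 * y' ^ E.j2 * t' ^ E.j3)

/-- Value of a table. -/
def tblVal (T : List Ent) (s y t s' y' t' : ℝ) : ℝ :=
  (T.map fun E => E.val s y t s' y' t').sum

def tabN : List (ℕ × List (ℕ × List Ent)) := [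
  (0, [
    (0, [
      ⟨true, 192000, 0, 0, 1, 1, 0, 0⟩,
      ⟨true, 48000, 2, 0, 0, 1, 0, 0⟩]),
    (1, [
      ⟨false, 480000, 1, 1, 0, 1, 0, 0⟩]),
    (2, [
      ⟨true, 112896, 0, 2, 0, 1, 0, 0⟩,
      ⟨true, 254016, 1, 0, 1, 1, 0, 0⟩,
      ⟨true, 84672, 3, 0, 0, 1, 0, 0⟩]),
    (3, [
      ⟨false, 64512, 0, 1, 1, 1, 0, 0⟩,
      ⟨false, 193536, 2, 1, 0, 1, 0, 0⟩]),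
    (4, [
      ⟨true, 3456, 0, 0, 2, 1, 0, 0⟩,
      ⟨true, 24576, 1, 2, 0, 1, 0, 0⟩,
      ⟨true, 20736, 2, 0, 1, 1, 0, 0⟩,
      ⟨true, 3456, 4, 0, 0, 1, 0, 0⟩])]),
  (1, [
    (0, [
      ⟨false, 72000, 0, 1, 0, 0, 1, 0⟩]),
    (1, [
      ⟨false, 144000, 0, 0, 1, 0, 1, 0⟩,
      ⟨true, 96000, 2, 0, 0, 0, 1, 0⟩]),
    (2, [
      ⟨true, 72000, 1, 1, 0, 0, 1, 0⟩])]),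
  (2, [
    (0, [
      ⟨true, 192000, 1, 0, 0, 0, 0, 1⟩,
      ⟨true, 48000, 1, 0, 0, 2, 0, 0⟩]),
    (1, [
      ⟨false, 144000, 0, 1, 0, 0, 0, 1⟩,
      ⟨true, 96000, 0, 1, 0, 2, 0, 0⟩]),
    (2, [
      ⟨true, 46125, 0, 0, 1, 0, 0, 1⟩,
      ⟨false, 158500, 0, 0, 1, 2, 0, 0⟩,
      ⟨false, 158500, 2, 0, 0, 0, 0, 1⟩,
      ⟨false, 83000, 2, 0, 0, 2, 0, 0⟩]),
    (3, [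
      ⟨true, 96000, 1, 1, 0, 0, 0, 1⟩,
      ⟨true, 256000, 1, 1, 0, 2, 0, 0⟩]),
    (4, [
      ⟨false, 37632, 0, 2, 0, 2, 0, 0⟩,
      ⟨false, 39375, 1, 0, 1, 0, 0, 1⟩,
      ⟨false, 53172, 1, 0, 1, 2, 0, 0⟩,
      ⟨true, 31500, 3, 0, 0, 0, 0, 1⟩,
      ⟨false, 91224, 3, 0, 0, 2, 0, 0⟩]),
    (5, [
      ⟨true, 21504, 0, 1, 1, 2, 0, 0⟩,
      ⟨true, 64512, 2, 1, 0, 2, 0, 0⟩]),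
    (6, [
      ⟨false, 1152, 0, 0, 2, 2, 0, 0⟩,
      ⟨false, 8192, 1, 2, 0, 2, 0, 0⟩,
      ⟨false, 6912, 2, 0, 1, 2, 0, 0⟩,
      ⟨false, 1152, 4, 0, 0, 2, 0, 0⟩])]),
  (3, [
    (1, [
      ⟨false, 480000, 1, 0, 0, 1, 1, 0⟩]),
    (2, [
      ⟨true, 72000, 0, 1, 0, 1, 1, 0⟩]),
    (3, [
      ⟨true, 96000, 0, 0, 1, 1, 1, 0⟩,
      ⟨true, 256000, 2, 0, 0, 1, 1, 0⟩]),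
    (4, [
      ⟨false, 11000, 1, 1, 0, 1, 1, 0⟩]),
    (5, [
      ⟨false, 28000, 0, 2, 0, 1, 1, 0⟩,
      ⟨false, 42000, 1, 0, 1, 1, 1, 0⟩]),
    (6, [
      ⟨true, 5000, 2, 1, 0, 1, 1, 0⟩])]),
  (4, [
    (2, [
      ⟨true, 112896, 1, 0, 0, 0, 2, 0⟩,
      ⟨true, 254016, 1, 0, 0, 1, 0, 1⟩,
      ⟨true, 84672, 1, 0, 0, 3, 0, 0⟩]),
    (4, [
      ⟨false, 39375, 0, 0, 1, 1, 0, 1⟩,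
      ⟨true, 31500, 0, 0, 1, 3, 0, 0⟩,
      ⟨false, 37632, 2, 0, 0, 0, 2, 0⟩,
      ⟨false, 53172, 2, 0, 0, 1, 0, 1⟩,
      ⟨false, 91224, 2, 0, 0, 3, 0, 0⟩]),
    (5, [
      ⟨false, 28000, 1, 1, 0, 0, 2, 0⟩,
      ⟨false, 42000, 1, 1, 0, 1, 0, 1⟩]),
    (6, [
      ⟨true, 33250, 0, 2, 0, 0, 2, 0⟩,
      ⟨false, 36750, 0, 2, 0, 1, 0, 1⟩,
      ⟨true, 18000, 0, 2, 0, 3, 0, 0⟩,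
      ⟨false, 36750, 1, 0, 1, 0, 2, 0⟩,
      ⟨true, 151875, 1, 0, 1, 1, 0, 1⟩,
      ⟨false, 130500, 1, 0, 1, 3, 0, 0⟩,
      ⟨true, 18000, 3, 0, 0, 0, 2, 0⟩,
      ⟨false, 130500, 3, 0, 0, 1, 0, 1⟩,
      ⟨true, 153000, 3, 0, 0, 3, 0, 0⟩]),
    (7, [
      ⟨true, 3500, 0, 1, 1, 0, 2, 0⟩,
      ⟨true, 2250, 0, 1, 1, 1, 0, 1⟩,
      ⟨false, 3000, 0, 1, 1, 3, 0, 0⟩,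
      ⟨false, 2000, 2, 1, 0, 0, 2, 0⟩,
      ⟨true, 3000, 2, 1, 0, 1, 0, 1⟩,
      ⟨true, 6000, 2, 1, 0, 3, 0, 0⟩])]),
  (5, [
    (3, [
      ⟨false, 64512, 1, 0, 0, 0, 1, 1⟩,
      ⟨false, 193536, 1, 0, 0, 2, 1, 0⟩]),
    (5, [
      ⟨true, 21504, 2, 0, 0, 0, 1, 1⟩,
      ⟨true, 64512, 2, 0, 0, 2, 1, 0⟩]),
    (6, [
      ⟨true, 5000, 1, 1, 0, 2, 1, 0⟩]),
    (7, [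
      ⟨true, 3500, 0, 2, 0, 0, 1, 1⟩,
      ⟨false, 2000, 0, 2, 0, 2, 1, 0⟩,
      ⟨true, 2250, 1, 0, 1, 0, 1, 1⟩,
      ⟨true, 3000, 1, 0, 1, 2, 1, 0⟩,
      ⟨false, 3000, 3, 0, 0, 0, 1, 1⟩,
      ⟨true, 6000, 3, 0, 0, 2, 1, 0⟩]),
    (8, [
      ⟨false, 13375, 0, 1, 1, 0, 1, 1⟩,
      ⟨true, 15500, 0, 1, 1, 2, 1, 0⟩,
      ⟨true, 15500, 2, 1, 0, 0, 1, 1⟩,
      ⟨false, 26000, 2, 1, 0, 2, 1, 0⟩])]),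
  (6, [
    (4, [
      ⟨true, 3456, 1, 0, 0, 0, 0, 2⟩,
      ⟨true, 24576, 1, 0, 0, 1, 2, 0⟩,
      ⟨true, 20736, 1, 0, 0, 2, 0, 1⟩,
      ⟨true, 3456, 1, 0, 0, 4, 0, 0⟩]),
    (6, [
      ⟨false, 1152, 2, 0, 0, 0, 0, 2⟩,
      ⟨false, 8192, 2, 0, 0, 1, 2, 0⟩,
      ⟨false, 6912, 2, 0, 0, 2, 0, 1⟩,
      ⟨false, 1152, 2, 0, 0, 4, 0, 0⟩])])]

/-- The flat list of the entries of a nested table. -/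
def flatN : List (ℕ × List (ℕ × List Ent)) → List Ent
  | [] => []
  | (_, M) :: L => (M.flatMap fun P => P.2) ++ flatN L

def tabF : List Ent := flatN tabN

def tabAv : List Ent := [
  ⟨true, 3456, 0, 0, 0, 1, 0, 0⟩,
  ⟨true, 3456, 1, 0, 0, 0, 0, 0⟩,
  ⟨false, 2304, 0, 1, 0, 1, 0, 0⟩,
  ⟨false, 2304, 1, 0, 0, 0, 1, 0⟩,
  ⟨true, 576, 0, 1, 0, 0, 1, 0⟩,
  ⟨true, 1152, 1, 0, 0, 2, 0, 0⟩,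
  ⟨true, 1152, 2, 0, 0, 1, 0, 0⟩,
  ⟨true, 1152, 0, 0, 1, 0, 1, 0⟩,
  ⟨true, 1152, 0, 1, 0, 0, 0, 1⟩,
  ⟨false, 369, 0, 0, 1, 0, 0, 1⟩,
  ⟨true, 756, 0, 0, 1, 2, 0, 0⟩,
  ⟨false, 576, 0, 1, 0, 1, 1, 0⟩,
  ⟨false, 576, 1, 1, 0, 0, 1, 0⟩,
  ⟨true, 756, 2, 0, 0, 0, 0, 1⟩,
  ⟨false, 360, 2, 0, 0, 2, 0, 0⟩,
  ⟨false, 768, 0, 0, 1, 1, 1, 0⟩,
  ⟨false, 768, 1, 1, 0, 0, 0, 1⟩,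
  ⟨false, 768, 1, 1, 0, 2, 0, 0⟩,
  ⟨false, 768, 2, 0, 0, 1, 1, 0⟩,
  ⟨true, 315, 0, 0, 1, 1, 0, 1⟩,
  ⟨false, 252, 0, 0, 1, 3, 0, 0⟩,
  ⟨true, 315, 1, 0, 1, 0, 0, 1⟩,
  ⟨false, 252, 1, 0, 1, 2, 0, 0⟩,
  ⟨true, 88, 1, 1, 0, 1, 1, 0⟩,
  ⟨false, 252, 2, 0, 0, 1, 0, 1⟩,
  ⟨true, 504, 2, 0, 0, 3, 0, 0⟩,
  ⟨false, 252, 3, 0, 0, 0, 0, 1⟩,
  ⟨true, 504, 3, 0, 0, 2, 0, 0⟩,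
  ⟨true, 224, 0, 2, 0, 1, 1, 0⟩,
  ⟨true, 336, 1, 0, 1, 1, 1, 0⟩,
  ⟨true, 224, 1, 1, 0, 0, 2, 0⟩,
  ⟨true, 336, 1, 1, 0, 1, 0, 1⟩,
  ⟨false, 266, 0, 2, 0, 0, 2, 0⟩,
  ⟨true, 294, 0, 2, 0, 1, 0, 1⟩,
  ⟨false, 144, 0, 2, 0, 3, 0, 0⟩,
  ⟨true, 294, 1, 0, 1, 0, 2, 0⟩,
  ⟨false, 1215, 1, 0, 1, 1, 0, 1⟩,
  ⟨true, 1044, 1, 0, 1, 3, 0, 0⟩,
  ⟨false, 40, 1, 1, 0, 2, 1, 0⟩,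
  ⟨false, 40, 2, 1, 0, 1, 1, 0⟩,
  ⟨false, 144, 3, 0, 0, 0, 2, 0⟩,
  ⟨true, 1044, 3, 0, 0, 1, 0, 1⟩,
  ⟨false, 1224, 3, 0, 0, 3, 0, 0⟩,
  ⟨false, 28, 0, 1, 1, 0, 2, 0⟩,
  ⟨false, 18, 0, 1, 1, 1, 0, 1⟩,
  ⟨true, 24, 0, 1, 1, 3, 0, 0⟩,
  ⟨false, 28, 0, 2, 0, 0, 1, 1⟩,
  ⟨true, 16, 0, 2, 0, 2, 1, 0⟩,
  ⟨false, 18, 1, 0, 1, 0, 1, 1⟩,
  ⟨false, 24, 1, 0, 1, 2, 1, 0⟩,
  ⟨true, 16, 2, 1, 0, 0, 2, 0⟩,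
  ⟨false, 24, 2, 1, 0, 1, 0, 1⟩,
  ⟨false, 48, 2, 1, 0, 3, 0, 0⟩,
  ⟨true, 24, 3, 0, 0, 0, 1, 1⟩,
  ⟨false, 48, 3, 0, 0, 2, 1, 0⟩,
  ⟨true, 107, 0, 1, 1, 0, 1, 1⟩,
  ⟨false, 124, 0, 1, 1, 2, 1, 0⟩,
  ⟨false, 124, 2, 1, 0, 0, 1, 1⟩,
  ⟨true, 208, 2, 1, 0, 2, 1, 0⟩]


end Vale.Agent.Lib.P154_q4
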